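import Vale.Agent.P219.Flat.Twelve.Defs

/-!
# P219, dimension twelve: every row is nonnegative on its boxes

The Bernstein coefficients are computed by the kernel.
-/

namespace Vale.Agent.P219.CH.Flat.Twelve

open Vale.Agent.P219.Poly Vale.Agent.P219.Poly.E

theorem rim_0 : check (homSub (boxNum ![1, 0, 0] ![1, 1, 1]) (boxDen ![1, 1, 1]) rowRim) = true := by
  decide +kernel

theorem rim_1 : check (homSub (boxNum ![0, 0, 0] ![1, 1, 1]) (boxDen ![1, 1, 1]) rowRim) = true := by
  decide +kernel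

theorem rimTail_0 : check (homSub (tailNum ![0, 0, 0] ![1, 1, 1]) (tailDen ![1, 1, 1]) rowRim) = true := by
  decide +kernel

theorem slope_0 : check (homSub (boxNum ![0, 0, 0] ![2, 1, 1]) (boxDen ![1, 1, 1]) rowSlope) = true := by
  decide +kernel

theorem gain_0 : check (homSub (boxNum ![7, 3, 7] ![1, 1, 1]) (boxDen ![4, 4, 8]) rowGain) = true := by
  decide +kernel

theorem gain_1 : check (homSub (boxNum ![6, 3, 7] ![1, 1, 1]) (boxDen ![4, 4, 8]) rowGain) = true := by
  decide +kernel

theorem gain_2 : check (homSub (boxNum ![3, 3, 6] ![1, 1, 1]) (boxDen ![2, 4, 8]) rowGain) = true := by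
  decide +kernel

theorem gain_3 : check (homSub (boxNum ![3, 3, 2] ![1, 1, 1]) (boxDen ![2, 4, 4]) rowGain) = true := by
  decide +kernel

theorem gain_4 : check (homSub (boxNum ![2, 7, 3] ![1, 1, 1]) (boxDen ![2, 8, 4]) rowGain) = true := by
  decide +kernel

theorem gain_5 : check (homSub (boxNum ![2, 6, 3] ![1, 1, 1]) (boxDen ![2, 8, 4]) rowGain) = true := by
  decide +kernel

theorem gain_6 : check (homSub (boxNum ![5, 15, 11] ![1, 1, 1]) (boxDen ![4, 16, 16]) rowGain) = true := by
  decide +kernel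

theorem gain_7 : check (homSub (boxNum ![11, 15, 10] ![1, 1, 1]) (boxDen ![8, 16, 16]) rowGain) = true := by
  decide +kernel

theorem gain_8 : check (homSub (boxNum ![10, 15, 10] ![1, 1, 1]) (boxDen ![8, 16, 16]) rowGain) = true := by
  decide +kernel

theorem gain_9 : check (homSub (boxNum ![4, 15, 5] ![1, 1, 1]) (boxDen ![4, 16, 8]) rowGain) = true := by
  decide +kernel

theorem gain_10 : check (homSub (boxNum ![5, 15, 4] ![1, 1, 1]) (boxDen ![4, 16, 8]) rowGain) = true := by
  decide +kernel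

theorem gain_11 : check (homSub (boxNum ![4, 15, 4] ![1, 1, 1]) (boxDen ![4, 16, 8]) rowGain) = true := by
  decide +kernel

theorem gain_12 : check (homSub (boxNum ![2, 14, 2] ![1, 1, 1]) (boxDen ![2, 16, 4]) rowGain) = true := by
  decide +kernel

theorem gain_13 : check (homSub (boxNum ![2, 6, 2] ![1, 1, 1]) (boxDen ![2, 8, 4]) rowGain) = true := by
  decide +kernel

theorem gain_14 : check (homSub (boxNum ![1, 2, 1] ![1, 1, 1]) (boxDen ![1, 4, 2]) rowGain) = true := by
  decide +kernel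

theorem gain_15 : check (homSub (boxNum ![1, 1, 0] ![1, 1, 1]) (boxDen ![1, 2, 2]) rowGain) = true := by
  decide +kernel

theorem gain_16 : check (homSub (boxNum ![0, 1, 1] ![1, 1, 1]) (boxDen ![1, 2, 2]) rowGain) = true := by
  decide +kernel

theorem gain_17 : check (homSub (boxNum ![0, 1, 0] ![1, 1, 1]) (boxDen ![1, 2, 2]) rowGain) = true := by
  decide +kernel

theorem gain_18 : check (homSub (boxNum ![0, 0, 0] ![2, 1, 1]) (boxDen ![1, 2, 1]) rowGain) = true := by
  decide +kernel

theorem gainTail_0 : check (homSub (tailNum ![0, 0, 0] ![1, 1, 1]) (tailDen ![1, 1, 1]) rowGain) = true := by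
  decide +kernel

theorem mix_0 : check (homSub (boxNum ![1, 0, 0] ![1, 1, 1]) (boxDen ![1, 1, 1]) rowMix) = true := by
  decide +kernel

theorem mix_1 : check (homSub (boxNum ![3, 0, 1] ![1, 1, 1]) (boxDen ![4, 1, 2]) rowMix) = true := by
  decide +kernel

theorem mix_2 : check (homSub (boxNum ![2, 0, 1] ![1, 1, 1]) (boxDen ![4, 1, 2]) rowMix) = true := by
  decide +kernel

theorem mix_3 : check (homSub (boxNum ![1, 0, 0] ![1, 1, 1]) (boxDen ![2, 1, 2]) rowMix) = true := by
  decide +kernel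

theorem mix_4 : check (homSub (boxNum ![0, 0, 0] ![1, 1, 1]) (boxDen ![2, 1, 1]) rowMix) = true := by
  decide +kernel

theorem mixTail_0 : check (homSub (tailNum ![0, 0, 0] ![1, 1, 1]) (tailDen ![1, 1, 1]) rowMix) = true := by
  decide +kernel

theorem out_0 : check (homSub (boxNum ![1, 0, 0] ![1, 1, 1]) (boxDen ![1, 1, 1]) rowOut) = true := by
  decide +kernel

theorem out_1 : check (homSub (boxNum ![0, 0, 0] ![1, 1, 1]) (boxDen ![1, 1, 1]) rowOut) = true := by
  decide +kernel

theorem outTail_0 : check (homSub (tailNum ![0, 0, 0] ![1, 1, 1]) (tailDen ![1, 1, 1]) rowOut) = true := by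
  decide +kernel

theorem mono_0 : check (homSub (boxNum ![0, 0, 0] ![2, 1, 1]) (boxDen ![1, 1, 1]) rowMono) = true := by
  decide +kernel

theorem monoTail_0 : check (homSub (tailNum ![0, 0, 0] ![1, 1, 1]) (tailDen ![1, 1, 1]) rowMono) = true := by
  decide +kernel

theorem aRow_0 : check (homSub (boxNum ![0, 0, 0] ![1, 1, 1]) (boxDen ![1, 1, 1]) rowA) = true := by
  decide +kernel

theorem lo_0 : check (homSub (boxNum ![1, 0, 0] ![1, 1, 1]) (boxDen ![1, 2, 1]) rowLo) = true := by
  decide +kernel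

theorem lo_1 : check (homSub (boxNum ![0, 0, 0] ![1, 1, 1]) (boxDen ![1, 2, 1]) rowLo) = true := by
  decide +kernel

theorem loTail_0 : check (homSub (tailNum ![0, 0, 0] ![1, 1, 1]) (tailDen ![1, 2, 1]) rowLo) = true := by
  decide +kernel

theorem hi_0 : check (homSub (boxNum ![0, 1, 0] ![3, 1, 1]) (boxDen ![2, 2, 1]) rowHi) = true := by
  decide +kernel

theorem hi_1 : check (homSub (boxNum ![3, 2, 0] ![1, 1, 1]) (boxDen ![2, 4, 1]) rowHi) = true := by
  decide +kernel

theorem hiTail_0 : check (homSub (tailNum ![0, 1, 0] ![1, 1, 1]) (tailDen ![1, 2, 1]) rowHi) = true := by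
  decide +kernel

theorem q_0 : check (homSub (boxNum ![0, 0, 0] ![2, 1, 1]) (boxDen ![1, 1, 1]) (rowQ (.x 0) (.x 1))) = true := by
  decide +kernel

theorem qTail_0 : check (homSub (tailNum ![0, 0, 0] ![1, 1, 1]) (tailDen ![1, 1, 1]) (rowQ (.x 0) (.x 1))) = true := by
  decide +kernel

theorem cornerG_0 : check (homSub (boxNum ![3, 3, 0] ![1, 1, 1]) (boxDen ![2, 4, 1])
    (rowG (.x 0) (.x 1) (.mul (.x 2) (.pow (.add (.k 1) (.neg (.x 1))) 2)))) = true := by
  decide +kernel

theorem slopeTail_8 : check (homSub ![.k 8, .x 1, .x 2] ![.x 0, .k 1, .k 1] rowSlope) = true := by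
  decide +kernel

theorem slopeMid_0 : check (homSub (boxNum ![2, 0, 0] ![2, 1, 1]) (boxDen ![1, 1, 1]) rowSlope) = true := by
  decide +kernel

theorem slopeMid_1 : check (homSub (boxNum ![12, 0, 0] ![4, 1, 1]) (boxDen ![3, 1, 1]) rowSlope) = true := by
  decide +kernel

theorem slopeMid_2 : check (homSub (boxNum ![80, 0, 0] ![16, 1, 1]) (boxDen ![15, 1, 1]) rowSlope) = true := by
  decide +kernel

theorem slopeMid_3 : check (homSub (boxNum ![32, 0, 0] ![8, 1, 1]) (boxDen ![5, 1, 1]) rowSlope) = true := by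
  decide +kernel

end Vale.Agent.P219.CH.Flat.Twelve
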