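import Vale.Agent.P219.Flat.Subst

/-!
# P219, dimension twelve: the profile and its rows as integer expressions

`u (r, c) = (P0 r + c ^ 2 P2 r) / r ^ 7`; every number below is the rational one times `den`.
The tangency equation at the contact makes the pair row `(r - 2 m) ^ 2 Q + δ ^ 2 G` at the cosines
`m - δ` and `m + δ`; `rowQ` and `rowG` are these two factors,
less the slack; the other rows of the kernel are less `margin r ^ 8` too.
-/

noncomputable section

namespace Vale.Agent.P219.CH.Flat.Twelve

open Vale.Agent.P219.Poly (E)

/-- The common denominator. -/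
def den : ℤ := 10986421248

/-- The slack of the strict rows, times `2 den`. -/
def margin : ℤ := 1341115

/-- Horner form with integer coefficients, lowest first. -/
def horner : List ℤ → E → E
  | [], _ => .k 0
  | [z], _ => .k z
  | z :: l, r => .add (.k z) (.mul r (horner l r))

/-- Horner form with expression coefficients, lowest first. -/
def hornerE : List E → E → E
  | [], _ => .k 0
  | [p], _ => p
  | p :: l, r => .add p (.mul r (hornerE l r))

/-- The coefficients of `den * P0`. -/
def z0 : List ℤ := [16874217965, 0, 10870729373, 1823177664, 11783950596, -1937126268, 2530752048]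

/-- Those of its derivative. -/
def dz0 : List ℤ := [0, 21741458746, 5469532992, 47135802384, -9685631340, 15184512288]

/-- The coefficients of `den * P2`. -/
def z2 : List ℤ := [-474865836, -10939065984, -34547144940, 9913528548, -686651328]

/-- Those of its derivative. -/
def dz2 : List ℤ := [-10939065984, -69094289880, 29740585644, -2746605312]

/-- The coefficients of `den` times the marginal coefficient over the cosine. -/
def za : List ℤ := [0, -809962462320, 0, -169590345840, -350050111488, -2685171344512, 2100300668928, 3619616419584, -2632668546816, -1656882855936]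

/-- `den` times the numerator of the profile. -/
def rowN (R C : E) : E := .add (horner z0 R) (.mul (.pow C 2) (horner z2 R))

/-- `den` times its derivative. -/
def rowDN (R C : E) : E := .add (horner dz0 R) (.mul (.pow C 2) (horner dz2 R))

/-- `2 den` times the kernel. -/
def rowKer (R C D AC AD : E) : E :=
  .add (.add (.add
    (.mul (.k 2) (.mul (.add (.k 1) (.neg (.pow D 2)))
      (.add (.mul R (rowDN R C)) (.mul (.k (-7)) (rowN R C)))))
    (.mul (.k 2) (.mul (.add (.k 10) (.pow D 2)) (rowN R C))))
    (.mul (.mul (.k 2) (.mul AC (.mul (horner z2 R) AD)))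
      (.add (.k 2) (.neg (.add (.pow C 2) (.pow D 2))))))
    (.mul (.k (-22)) (.mul D (.mul R (rowN R C))))

/-- `2 den` times the symmetrised kernel. -/
def rowSym (R C D AC AD : E) : E :=
  .add (.mul (.k 43945684992) (.pow R 8)) (.add (rowKer R C D AC AD) (rowKer R D C AD AC))

/-- The gain at the cosines `d z` and `d`. -/
def rowGain : E :=
  .add
  (.add (rowSym (.x 0) (.mul (.x 1) (.x 2)) (.x 1) (.mul (.x 1) (.x 2)) (.x 1))
    (.mul (.k 4) (.mul (.mul (.mul (.x 1) (.x 2)) (.x 1)) (rowN (.x 0) (.x 1)))))
  (.neg (.mul (.k margin) (.pow (.x 0) 8)))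

/-- An inward and an outward cosine. -/
def rowMix : E :=
  .add
  (.add (rowSym (.x 0) (.x 1) (.neg (.x 2)) (.x 1) (.x 2))
    (.mul (.k (-4)) (.mul (.mul (.x 1) (.x 2)) (horner z0 (.x 0)))))
  (.neg (.mul (.k margin) (.pow (.x 0) 8)))

/-- Two outward cosines. -/
def rowOut : E :=
  .add (rowSym (.x 0) (.neg (.x 1)) (.neg (.x 2)) (.x 1) (.x 2))
    (.neg (.mul (.k margin) (.pow (.x 0) 8)))

/-- The weight at the rim. -/
def rowRim : E := rowN (.x 0) (.k 1)

/-- The slope. -/
def rowSlope : E := .neg (horner z2 (.x 0))

/-- The growth of `r ^ 3 P0`. -/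
def rowMono : E := .add (.mul (.x 0) (horner dz0 (.x 0))) (.mul (.k 3) (horner z0 (.x 0)))

/-- The sign of the marginal coefficient. -/
def rowA : E := .neg (horner za (.x 1))

/-- The contact factor of the pair row. -/
def rowQ (R M : E) : E :=
  .add (hornerE [
    horner [0, 202490615580, 0, 217414587460, 43756263936, 329950616688, -61988040576, 91107073728, 0, 43945684992] R,
    horner [809962462320, 0, 127192759380, 175025055744, 841490374340, -328171979520, -154065531312, 85233555792, 64429649856, 0] R,
    horner [0, 169590345840, 262537583616, 1339736477240, -711039288960, -816866658432, 317688707952, 102181875840, 0, 0] R,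
    horner [169590345840, 350050111488, 2013878508384, -1050150334464, -1131130131120, 493625352528, 181221562368, 0, 0, 0] R,
    horner [350050111488, 2685171344512, -1575225501696, -1809808209792, 822708920880, 310665535488, 0, 0, 0, 0] R,
    horner [2685171344512, -2100300668928, -2714712314688, 1316334273408, 517775892480, 0, 0, 0, 0, 0] R,
    horner [-2100300668928, -3619616419584, 1974501410112, 828441427968, 0, 0, 0, 0, 0, 0] R,
    horner [-3619616419584, 2632668546816, 1242662141952, 0, 0, 0, 0, 0, 0, 0] R,
    horner [2632668546816, 1656882855936, 0, 0, 0, 0, 0, 0, 0, 0] R,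
    horner [1656882855936, 0, 0, 0, 0, 0, 0, 0, 0, 0] R] M)
    (.neg (.mul (.k margin) (.pow R 9)))

/-- The factor of the squared half difference of the cosines. -/
def rowG (R M S : E) : E :=
  .add (hornerE [
    hornerE [horner [0, 2429887386960, 0, 538075511536, -87512527872, -153668234328, 195080010048, 174810182976, -23245515216, 20246016384] R,
      horner [-3239849849280, 0, 0, 0, -20894096784, -481318903296, -1520074377360, 436195256112, -30212658432, 0] R,
      horner [0, 0, 0, 30391413504, 612587695104, 1658262957120, -396541141920, 21972842496, 0, 0] R,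
      horner [1356722766720, 0, 0, 0, 0, 0, 0, 0, 0, 0] R,
      horner [7001002229760, 0, 0, 0, 0, 0, 0, 0, 0, 0] R,
      horner [96666168402432, 0, 0, 0, 0, 0, 0, 0, 0, 0] R,
      horner [-117616837459968, 0, 0, 0, 0, 0, 0, 0, 0, 0] R,
      horner [-289569313566720, 0, 0, 0, 0, 0, 0, 0, 0, 0] R,
      horner [284328203056128, 0, 0, 0, 0, 0, 0, 0, 0, 0] R,
      horner [231963599831040, 0, 0, 0, 0, 0, 0, 0, 0, 0] R] M,
    hornerE [horner [0, 0, 0, -18994633440, -393806375424, -1105508638080, 277578799344, -16479631872] R,
      horner [-2035084150080, 0, 0, 0, 0, 0, 0, 0] R,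
      horner [-7001002229760, 0, 0, 0, 0, 0, 0, 0] R,
      horner [-53703426890240, 0, 0, 0, 0, 0, 0, 0] R,
      horner [0, 0, 0, 0, 0, 0, 0, 0] R,
      horner [-202698519496704, 0, 0, 0, 0, 0, 0, 0] R,
      horner [442288315865088, 0, 0, 0, 0, 0, 0, 0] R,
      horner [596477828136960, 0, 0, 0, 0, 0, 0, 0] R] M,
    hornerE [horner [-1400200445952] R,
      horner [-53703426890240] R,
      horner [117616837459968] R,
      horner [405397038993408] R,
      horner [-442288315865088] R,
      horner [-278356319797248] R] M,
    hornerE [horner [8401202675712] R,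
      horner [101349259748352] R,
      horner [-284328203056128] R,
      horner [-497064856780800] R] M,
    hornerE [horner [-10530674187264] R,
      horner [-59647782813696] R] M] S)
    (.neg (.mul (.k (4 * margin)) (.pow R 9)))

/-- The pair row at the largest difference, below the half. -/
def rowLo : E :=
  .add (.mul (.pow (.add (.x 0) (.mul (.k (-2)) (.x 1))) 2) (rowQ (.x 0) (.x 1)))
    (.mul (.pow (.x 1) 2) (rowG (.x 0) (.x 1) (.mul (.x 2) (.pow (.x 1) 2))))

/-- The pair row at the largest difference, above the half. -/
def rowHi : E :=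
  .add (.mul (.pow (.add (.x 0) (.mul (.k (-2)) (.x 1))) 2) (rowQ (.x 0) (.x 1)))
    (.mul (.pow (.add (.k 1) (.neg (.x 1))) 2)
      (rowG (.x 0) (.x 1) (.mul (.x 2) (.pow (.add (.k 1) (.neg (.x 1))) 2))))

end Vale.Agent.P219.CH.Flat.Twelve
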