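import Vale.Agent.P219.Flat.Twelve.Boxes

/-!
# P219, dimension twelve: the rows on their domains
-/

noncomputable section

namespace Vale.Agent.P219.CH.Flat.Twelve

open Set Vale.Agent.P219.Poly Vale.Agent.P219.Poly.E

lemma box_of {a b q : Fin 3 → ℤ} {p : E} (hc : check (homSub (boxNum a b) (boxDen q) p) = true)
    (hb : ∀ i, 0 < b i) (hq : ∀ i, 0 < q i) {r y z : ℝ}
    (h : ((a 0 : ℝ) ≤ r * q 0 ∧ r * q 0 ≤ a 0 + b 0) ∧ ((a 1 : ℝ) ≤ y * q 1 ∧ y * q 1 ≤ a 1 + b 1) ∧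
      ((a 2 : ℝ) ≤ z * q 2 ∧ z * q 2 ≤ a 2 + b 2)) : 0 ≤ sem ![r, y, z] p :=
  nonneg_box hc hb hq fun i => by
    fin_cases i
    exacts [h.1, h.2.1, h.2.2]

lemma tail_of {a b q : Fin 3 → ℤ} {p : E} (hc : check (homSub (tailNum a b) (tailDen q) p) = true)
    (hb : ∀ i, 0 < b i) (hq : ∀ i, 0 < q i) {r y z : ℝ} (hr : 2 ≤ r)
    (h : ((a 1 : ℝ) ≤ y * q 1 ∧ y * q 1 ≤ a 1 + b 1) ∧
      ((a 2 : ℝ) ≤ z * q 2 ∧ z * q 2 ≤ a 2 + b 2)) : 0 ≤ sem ![r, y, z] p :=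
  nonneg_tail hc hb hq (w := ![r, y, z]) hr fun i hi => by
    fin_cases i
    · exact absurd rfl hi
    exacts [h.1, h.2]

lemma rim_nonneg {r y z : ℝ} (hr : 0 ≤ r) (hy : y ∈ Icc (0 : ℝ) (1)) (hz : z ∈ Icc (0 : ℝ) 1) :
    0 ≤ sem ![r, y, z] rowRim := by
  obtain ⟨hy0, hy1⟩ := hy
  obtain ⟨hz0, hz1⟩ := hz
  rcases le_total 2 r with h2 | h2
  · exact tail_of rimTail_0 (by decide) (by decide) h2 (by refine ⟨⟨?_, ?_⟩, ?_, ?_⟩ <;> simp [Matrix.cons_val] <;> linarith)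
  rcases le_total r (1) with hs2 | hs2
  · exact box_of rim_1 (by decide) (by decide) (by refine ⟨⟨?_, ?_⟩, ⟨?_, ?_⟩, ?_, ?_⟩ <;> simp [Matrix.cons_val] <;> linarith)
  · exact box_of rim_0 (by decide) (by decide) (by refine ⟨⟨?_, ?_⟩, ⟨?_, ?_⟩, ?_, ?_⟩ <;> simp [Matrix.cons_val] <;> linarith)

lemma slope_nonneg {r y z : ℝ} (hr : 0 ≤ r) (hy : y ∈ Icc (0 : ℝ) (1)) (hz : z ∈ Icc (0 : ℝ) 1) :
    0 ≤ sem ![r, y, z] rowSlope := by
  obtain ⟨hy0, hy1⟩ := hy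
  obtain ⟨hz0, hz1⟩ := hz
  rcases le_total 8 r with h8 | h8
  · refine sem_nonneg_of_homSub slopeTail_8 (v := ![8 / r, y, z]) ?_ ?_ ?_ <;> intro i <;>
      fin_cases i <;> simp [sem, div_le_one, hy0, hy1, hz0, hz1, show (0 : ℝ) < r by linarith] <;>
      first | exact (mul_div_cancel₀ _ (by linarith)).symm | exact ⟨by positivity, h8⟩
  rcases le_total r (2) with hs2 | hs2
  · exact box_of slope_0 (by decide) (by decide) (by refine ⟨⟨?_, ?_⟩, ⟨?_, ?_⟩, ?_, ?_⟩ <;> simp [Matrix.cons_val] <;> linarith)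
  · rcases le_total r (4) with hs4 | hs4
    · exact box_of slopeMid_0 (by decide) (by decide) (by refine ⟨⟨?_, ?_⟩, ⟨?_, ?_⟩, ?_, ?_⟩ <;> simp [Matrix.cons_val] <;> linarith)
    · rcases le_total r (16 / 3) with hs6 | hs6
      · exact box_of slopeMid_1 (by decide) (by decide) (by refine ⟨⟨?_, ?_⟩, ⟨?_, ?_⟩, ?_, ?_⟩ <;> simp [Matrix.cons_val] <;> linarith)
      · rcases le_total r (32 / 5) with hs8 | hs8
        · exact box_of slopeMid_2 (by decide) (by decide) (by refine ⟨⟨?_, ?_⟩, ⟨?_, ?_⟩, ?_, ?_⟩ <;> simp [Matrix.cons_val] <;> linarith)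
        · exact box_of slopeMid_3 (by decide) (by decide) (by refine ⟨⟨?_, ?_⟩, ⟨?_, ?_⟩, ?_, ?_⟩ <;> simp [Matrix.cons_val] <;> linarith)

lemma gain_nonneg {r y z : ℝ} (hr : 0 ≤ r) (hy : y ∈ Icc (0 : ℝ) (1)) (hz : z ∈ Icc (0 : ℝ) 1) :
    0 ≤ sem ![r, y, z] rowGain := by
  obtain ⟨hy0, hy1⟩ := hy
  obtain ⟨hz0, hz1⟩ := hz
  rcases le_total 2 r with h2 | h2
  · exact tail_of gainTail_0 (by decide) (by decide) h2 (by refine ⟨⟨?_, ?_⟩, ?_, ?_⟩ <;> simp [Matrix.cons_val] <;> linarith)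
  rcases le_total y (1 / 2) with hs2 | hs2
  · exact box_of gain_18 (by decide) (by decide) (by refine ⟨⟨?_, ?_⟩, ⟨?_, ?_⟩, ?_, ?_⟩ <;> simp [Matrix.cons_val] <;> linarith)
  · rcases le_total r (1) with hs4 | hs4
    · rcases le_total z (1 / 2) with hs6 | hs6
      · exact box_of gain_17 (by decide) (by decide) (by refine ⟨⟨?_, ?_⟩, ⟨?_, ?_⟩, ?_, ?_⟩ <;> simp [Matrix.cons_val] <;> linarith)
      · exact box_of gain_16 (by decide) (by decide) (by refine ⟨⟨?_, ?_⟩, ⟨?_, ?_⟩, ?_, ?_⟩ <;> simp [Matrix.cons_val] <;> linarith)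
    · rcases le_total z (1 / 2) with hs6 | hs6
      · exact box_of gain_15 (by decide) (by decide) (by refine ⟨⟨?_, ?_⟩, ⟨?_, ?_⟩, ?_, ?_⟩ <;> simp [Matrix.cons_val] <;> linarith)
      · rcases le_total y (3 / 4) with hs8 | hs8
        · exact box_of gain_14 (by decide) (by decide) (by refine ⟨⟨?_, ?_⟩, ⟨?_, ?_⟩, ?_, ?_⟩ <;> simp [Matrix.cons_val] <;> linarith)
        · rcases le_total r (3 / 2) with hs10 | hs10
          · rcases le_total y (7 / 8) with hs12 | hs12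
            · rcases le_total z (3 / 4) with hs14 | hs14
              · exact box_of gain_13 (by decide) (by decide) (by refine ⟨⟨?_, ?_⟩, ⟨?_, ?_⟩, ?_, ?_⟩ <;> simp [Matrix.cons_val] <;> linarith)
              · exact box_of gain_5 (by decide) (by decide) (by refine ⟨⟨?_, ?_⟩, ⟨?_, ?_⟩, ?_, ?_⟩ <;> simp [Matrix.cons_val] <;> linarith)
            · rcases le_total z (3 / 4) with hs14 | hs14
              · rcases le_total y (15 / 16) with hs16 | hs16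
                · exact box_of gain_12 (by decide) (by decide) (by refine ⟨⟨?_, ?_⟩, ⟨?_, ?_⟩, ?_, ?_⟩ <;> simp [Matrix.cons_val] <;> linarith)
                · rcases le_total r (5 / 4) with hs18 | hs18
                  · rcases le_total z (5 / 8) with hs20 | hs20
                    · exact box_of gain_11 (by decide) (by decide) (by refine ⟨⟨?_, ?_⟩, ⟨?_, ?_⟩, ?_, ?_⟩ <;> simp [Matrix.cons_val] <;> linarith)
                    · exact box_of gain_9 (by decide) (by decide) (by refine ⟨⟨?_, ?_⟩, ⟨?_, ?_⟩, ?_, ?_⟩ <;> simp [Matrix.cons_val] <;> linarith)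
                  · rcases le_total z (5 / 8) with hs20 | hs20
                    · exact box_of gain_10 (by decide) (by decide) (by refine ⟨⟨?_, ?_⟩, ⟨?_, ?_⟩, ?_, ?_⟩ <;> simp [Matrix.cons_val] <;> linarith)
                    · rcases le_total z (11 / 16) with hs22 | hs22
                      · rcases le_total r (11 / 8) with hs24 | hs24
                        · exact box_of gain_8 (by decide) (by decide) (by refine ⟨⟨?_, ?_⟩, ⟨?_, ?_⟩, ?_, ?_⟩ <;> simp [Matrix.cons_val] <;> linarith)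
                        · exact box_of gain_7 (by decide) (by decide) (by refine ⟨⟨?_, ?_⟩, ⟨?_, ?_⟩, ?_, ?_⟩ <;> simp [Matrix.cons_val] <;> linarith)
                      · exact box_of gain_6 (by decide) (by decide) (by refine ⟨⟨?_, ?_⟩, ⟨?_, ?_⟩, ?_, ?_⟩ <;> simp [Matrix.cons_val] <;> linarith)
              · exact box_of gain_4 (by decide) (by decide) (by refine ⟨⟨?_, ?_⟩, ⟨?_, ?_⟩, ?_, ?_⟩ <;> simp [Matrix.cons_val] <;> linarith)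
          · rcases le_total z (3 / 4) with hs12 | hs12
            · exact box_of gain_3 (by decide) (by decide) (by refine ⟨⟨?_, ?_⟩, ⟨?_, ?_⟩, ?_, ?_⟩ <;> simp [Matrix.cons_val] <;> linarith)
            · rcases le_total z (7 / 8) with hs14 | hs14
              · exact box_of gain_2 (by decide) (by decide) (by refine ⟨⟨?_, ?_⟩, ⟨?_, ?_⟩, ?_, ?_⟩ <;> simp [Matrix.cons_val] <;> linarith)
              · rcases le_total r (7 / 4) with hs16 | hs16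
                · exact box_of gain_1 (by decide) (by decide) (by refine ⟨⟨?_, ?_⟩, ⟨?_, ?_⟩, ?_, ?_⟩ <;> simp [Matrix.cons_val] <;> linarith)
                · exact box_of gain_0 (by decide) (by decide) (by refine ⟨⟨?_, ?_⟩, ⟨?_, ?_⟩, ?_, ?_⟩ <;> simp [Matrix.cons_val] <;> linarith)

lemma mix_nonneg {r y z : ℝ} (hr : 0 ≤ r) (hy : y ∈ Icc (0 : ℝ) (1)) (hz : z ∈ Icc (0 : ℝ) 1) :
    0 ≤ sem ![r, y, z] rowMix := by
  obtain ⟨hy0, hy1⟩ := hy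
  obtain ⟨hz0, hz1⟩ := hz
  rcases le_total 2 r with h2 | h2
  · exact tail_of mixTail_0 (by decide) (by decide) h2 (by refine ⟨⟨?_, ?_⟩, ?_, ?_⟩ <;> simp [Matrix.cons_val] <;> linarith)
  rcases le_total r (1 / 2) with hs2 | hs2
  · exact box_of mix_4 (by decide) (by decide) (by refine ⟨⟨?_, ?_⟩, ⟨?_, ?_⟩, ?_, ?_⟩ <;> simp [Matrix.cons_val] <;> linarith)
  · rcases le_total r (1) with hs4 | hs4
    · rcases le_total z (1 / 2) with hs6 | hs6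
      · exact box_of mix_3 (by decide) (by decide) (by refine ⟨⟨?_, ?_⟩, ⟨?_, ?_⟩, ?_, ?_⟩ <;> simp [Matrix.cons_val] <;> linarith)
      · rcases le_total r (3 / 4) with hs8 | hs8
        · exact box_of mix_2 (by decide) (by decide) (by refine ⟨⟨?_, ?_⟩, ⟨?_, ?_⟩, ?_, ?_⟩ <;> simp [Matrix.cons_val] <;> linarith)
        · exact box_of mix_1 (by decide) (by decide) (by refine ⟨⟨?_, ?_⟩, ⟨?_, ?_⟩, ?_, ?_⟩ <;> simp [Matrix.cons_val] <;> linarith)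
    · exact box_of mix_0 (by decide) (by decide) (by refine ⟨⟨?_, ?_⟩, ⟨?_, ?_⟩, ?_, ?_⟩ <;> simp [Matrix.cons_val] <;> linarith)

lemma out_nonneg {r y z : ℝ} (hr : 0 ≤ r) (hy : y ∈ Icc (0 : ℝ) (1)) (hz : z ∈ Icc (0 : ℝ) 1) :
    0 ≤ sem ![r, y, z] rowOut := by
  obtain ⟨hy0, hy1⟩ := hy
  obtain ⟨hz0, hz1⟩ := hz
  rcases le_total 2 r with h2 | h2
  · exact tail_of outTail_0 (by decide) (by decide) h2 (by refine ⟨⟨?_, ?_⟩, ?_, ?_⟩ <;> simp [Matrix.cons_val] <;> linarith)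
  rcases le_total r (1) with hs2 | hs2
  · exact box_of out_1 (by decide) (by decide) (by refine ⟨⟨?_, ?_⟩, ⟨?_, ?_⟩, ?_, ?_⟩ <;> simp [Matrix.cons_val] <;> linarith)
  · exact box_of out_0 (by decide) (by decide) (by refine ⟨⟨?_, ?_⟩, ⟨?_, ?_⟩, ?_, ?_⟩ <;> simp [Matrix.cons_val] <;> linarith)

lemma mono_nonneg {r y z : ℝ} (hr : 0 ≤ r) (hy : y ∈ Icc (0 : ℝ) (1)) (hz : z ∈ Icc (0 : ℝ) 1) :
    0 ≤ sem ![r, y, z] rowMono := by
  obtain ⟨hy0, hy1⟩ := hy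
  obtain ⟨hz0, hz1⟩ := hz
  rcases le_total 2 r with h2 | h2
  · exact tail_of monoTail_0 (by decide) (by decide) h2 (by refine ⟨⟨?_, ?_⟩, ?_, ?_⟩ <;> simp [Matrix.cons_val] <;> linarith)
  exact box_of mono_0 (by decide) (by decide) (by refine ⟨⟨?_, ?_⟩, ⟨?_, ?_⟩, ?_, ?_⟩ <;> simp [Matrix.cons_val] <;> linarith)

lemma aRow_nonneg {r y z : ℝ} (hr : r ∈ Icc (0 : ℝ) (1)) (hy : y ∈ Icc (0 : ℝ) (1)) (hz : z ∈ Icc (0 : ℝ) 1) :
    0 ≤ sem ![r, y, z] rowA := by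
  obtain ⟨hy0, hy1⟩ := hy
  obtain ⟨hz0, hz1⟩ := hz
  obtain ⟨hr0, hr1⟩ := hr
  exact box_of aRow_0 (by decide) (by decide) (by refine ⟨⟨?_, ?_⟩, ⟨?_, ?_⟩, ?_, ?_⟩ <;> simp [Matrix.cons_val] <;> linarith)

lemma lo_nonneg {r y z : ℝ} (hr : 0 ≤ r) (hy : y ∈ Icc (0 : ℝ) (1 / 2)) (hz : z ∈ Icc (0 : ℝ) 1) :
    0 ≤ sem ![r, y, z] rowLo := by
  obtain ⟨hy0, hy1⟩ := hy
  obtain ⟨hz0, hz1⟩ := hz
  rcases le_total 2 r with h2 | h2
  · exact tail_of loTail_0 (by decide) (by decide) h2 (by refine ⟨⟨?_, ?_⟩, ?_, ?_⟩ <;> simp [Matrix.cons_val] <;> linarith)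
  rcases le_total r (1) with hs2 | hs2
  · exact box_of lo_1 (by decide) (by decide) (by refine ⟨⟨?_, ?_⟩, ⟨?_, ?_⟩, ?_, ?_⟩ <;> simp [Matrix.cons_val] <;> linarith)
  · exact box_of lo_0 (by decide) (by decide) (by refine ⟨⟨?_, ?_⟩, ⟨?_, ?_⟩, ?_, ?_⟩ <;> simp [Matrix.cons_val] <;> linarith)

lemma q_nonneg {r y z : ℝ} (hr : 0 ≤ r) (hy : y ∈ Icc (0 : ℝ) 1) (hz : z ∈ Icc (0 : ℝ) 1) :
    0 ≤ sem ![r, y, z] (rowQ (.x 0) (.x 1)) := by
  obtain ⟨hy0, hy1⟩ := hy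
  obtain ⟨hz0, hz1⟩ := hz
  rcases le_total 2 r with h2 | h2
  · exact tail_of qTail_0 (by decide) (by decide) h2 (by refine ⟨⟨?_, ?_⟩, ?_, ?_⟩ <;> simp [Matrix.cons_val] <;> linarith)
  · exact box_of q_0 (by decide) (by decide) (by refine ⟨⟨?_, ?_⟩, ⟨?_, ?_⟩, ?_, ?_⟩ <;> simp [Matrix.cons_val] <;> linarith)

lemma hi_nonneg {r y z : ℝ} (hr : 0 ≤ r) (hy : y ∈ Icc (1 / 2 : ℝ) 1) (hz : z ∈ Icc (0 : ℝ) 1)
    (hout : 2 ≤ r ∨ r ≤ 3 / 2 ∨ y ≤ 3 / 4) : 0 ≤ sem ![r, y, z] rowHi := by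
  obtain ⟨hy0, hy1⟩ := hy
  obtain ⟨hz0, hz1⟩ := hz
  rcases le_or_gt 2 r with h2 | h2
  · exact tail_of hiTail_0 (by decide) (by decide) h2 (by refine ⟨⟨?_, ?_⟩, ?_, ?_⟩ <;> simp [Matrix.cons_val] <;> linarith)
  rcases le_or_gt r (3 / 2) with h3 | h3
  · exact box_of hi_0 (by decide) (by decide) (by refine ⟨⟨?_, ?_⟩, ⟨?_, ?_⟩, ?_, ?_⟩ <;> simp [Matrix.cons_val] <;> linarith)
  · have h4 : y ≤ 3 / 4 := by rcases hout with h | h | h <;> linarith [show y ≤ 1 from hy1]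
    exact box_of hi_1 (by decide) (by decide) (by refine ⟨⟨?_, ?_⟩, ⟨?_, ?_⟩, ?_, ?_⟩ <;> simp [Matrix.cons_val] <;> linarith)

lemma corner_nonneg {r y z : ℝ} (hr : r ∈ Icc (3 / 2 : ℝ) 2) (hy : y ∈ Icc (3 / 4 : ℝ) 1)
    (hz : z ∈ Icc (0 : ℝ) 1) :
    0 ≤ sem ![r, y, z] (rowG (.x 0) (.x 1) (.mul (.x 2) (.pow (.add (.k 1) (.neg (.x 1))) 2))) := by
  obtain ⟨hr0, hr1⟩ := hr
  obtain ⟨hy0, hy1⟩ := hy
  obtain ⟨hz0, hz1⟩ := hz
  exact box_of cornerG_0 (by decide) (by decide) (by refine ⟨⟨?_, ?_⟩, ⟨?_, ?_⟩, ?_, ?_⟩ <;> simp [Matrix.cons_val] <;> linarith)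

end Vale.Agent.P219.CH.Flat.Twelve
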