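import Vale.Agent.P219.Flat.Profile
import Vale.Agent.P219.Flat.Twelve.Rows
import Vale.Agent.P219.Flat.Strict.Profile

/-!
# P219, dimension twelve: the pointwise facts of the profile
-/

noncomputable section

namespace Vale.Agent.P219.CH.Flat.Twelve

open Set Vale.Agent.P219.Poly Vale.Agent.P219.Poly.E

/-- The profile. -/
def prof : Prof where
  P0 r := ((16874217965 : ℝ) * r ^ 0 + (0 : ℝ) * r ^ 1 + (10870729373 : ℝ) * r ^ 2 + (1823177664 : ℝ) * r ^ 3 + (11783950596 : ℝ) * r ^ 4 + (-1937126268 : ℝ) * r ^ 5 + (2530752048 : ℝ) * r ^ 6) / den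
  D0 r := ((0 : ℝ) * r ^ 0 + (21741458746 : ℝ) * r ^ 1 + (5469532992 : ℝ) * r ^ 2 + (47135802384 : ℝ) * r ^ 3 + (-9685631340 : ℝ) * r ^ 4 + (15184512288 : ℝ) * r ^ 5) / den
  P2 r := ((-474865836 : ℝ) * r ^ 0 + (-10939065984 : ℝ) * r ^ 1 + (-34547144940 : ℝ) * r ^ 2 + (9913528548 : ℝ) * r ^ 3 + (-686651328 : ℝ) * r ^ 4) / den
  D2 r := ((-10939065984 : ℝ) * r ^ 0 + (-69094289880 : ℝ) * r ^ 1 + (29740585644 : ℝ) * r ^ 2 + (-2746605312 : ℝ) * r ^ 3) / den

/-- The volume coefficient. -/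
def beta : ℝ := 14155 / 256

/-- The marginal coefficient. -/
def aCoef (c : ℝ) : ℝ := c * (((0 : ℝ) * c ^ 0 + (-809962462320 : ℝ) * c ^ 1 + (0 : ℝ) * c ^ 2 + (-169590345840 : ℝ) * c ^ 3 + (-350050111488 : ℝ) * c ^ 4 + (-2685171344512 : ℝ) * c ^ 5 + (2100300668928 : ℝ) * c ^ 6 + (3619616419584 : ℝ) * c ^ 7 + (-2632668546816 : ℝ) * c ^ 8 + (-1656882855936 : ℝ) * c ^ 9) / den)

lemma den_pos : (0 : ℝ) < den := by norm_num [den]

/-- The slack of the strict rows. -/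
def slack : ℝ := margin / (2 * den)

lemma slack_pos : 0 < slack := by norm_num [slack, margin, den]

lemma smooth_prof : prof.Smooth := by
  refine ⟨fun r => ?_, fun r => ?_, ?_, ?_⟩
  · simp only [prof]
    refine (((((((hasDerivAt_pow 0 r).const_mul _).add ((hasDerivAt_pow 1 r).const_mul _)).add
      ((hasDerivAt_pow 2 r).const_mul _)).add ((hasDerivAt_pow 3 r).const_mul _)).add
      ((hasDerivAt_pow 4 r).const_mul _)).add ((hasDerivAt_pow 5 r).const_mul _)).add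
      ((hasDerivAt_pow 6 r).const_mul _) |>.div_const _ |>.congr_deriv ?_
    push_cast
    ring
  · simp only [prof]
    refine (((((hasDerivAt_pow 0 r).const_mul _).add ((hasDerivAt_pow 1 r).const_mul _)).add
      ((hasDerivAt_pow 2 r).const_mul _)).add ((hasDerivAt_pow 3 r).const_mul _)).add
      ((hasDerivAt_pow 4 r).const_mul _) |>.div_const _ |>.congr_deriv ?_
    push_cast
    ring
  · simp only [prof]
    fun_prop
  · simp only [prof]
    fun_prop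

/-! ## The rows are the facts -/

lemma sem_rowSym (v : Fin 3 → ℝ) (R C D AC AD : E) (hac : sem v AC = |sem v C|)
    (had : sem v AD = |sem v D|) :
    sem v (rowSym R C D AC AD) = 2 * den * prof.symP 12 (sem v R) (sem v C) (sem v D) := by
  simp only [rowSym, rowKer, rowN, rowDN, horner, z0, z2, dz0, dz2, sem, hac, had, Prof.symP,
    Prof.kerP, Prof.N, Prof.dN, prof, den]
  push_cast
  ring

lemma rim_eq (r : ℝ) : sem ![r, 0, 0] rowRim = den * prof.N r 1 := by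
  simp [rowRim, rowN, horner, z0, z2, sem, Prof.N, prof, den]
  ring

lemma slope_eq (r : ℝ) : sem ![r, 0, 0] rowSlope = -(den * prof.P2 r) := by
  simp [rowSlope, horner, z2, sem, prof, den]
  ring

lemma mono_eq (r : ℝ) : sem ![r, 0, 0] rowMono = den * (r * prof.D0 r + 3 * prof.P0 r) := by
  simp [rowMono, horner, z0, dz0, sem, prof, den]
  ring

lemma a_eq (c : ℝ) : c * sem ![0, c, 0] rowA = -(den * aCoef c) := by
  simp [rowA, horner, za, sem, aCoef, den]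
  ring

lemma gain_eq (r d z : ℝ) (hd : 0 ≤ d) (hz : 0 ≤ z) :
    sem ![r, d, z] rowGain =
      2 * den * (prof.symP 12 r (d * z) d + 2 * (d * z * d) * prof.N r d -
        slack * r ^ 8) := by
  rw [rowGain, sem, sem, sem, sem_rowSym _ _ _ _ _ _ (by simp [sem, hd, hz, abs_of_nonneg, mul_nonneg])
    (by simp [sem, hd, abs_of_nonneg])]
  simp [rowN, horner, z0, z2, sem, Prof.N, prof, slack, margin, den]
  ring

lemma mix_eq (r c d : ℝ) (hc : 0 ≤ c) (hd : 0 ≤ d) :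
    sem ![r, c, d] rowMix = 2 * den * (prof.symP 12 r c (-d) - 2 * (c * d) * prof.N r 0 -
      slack * r ^ 8) := by
  rw [rowMix, sem, sem, sem, sem_rowSym _ _ _ _ _ _ (by simp [sem, hc, abs_of_nonneg])
    (by simp [sem, hd, abs_of_nonneg])]
  simp [horner, z0, sem, Prof.N, prof, slack, margin, den]
  ring

lemma out_eq (r c d : ℝ) (hc : 0 ≤ c) (hd : 0 ≤ d) :
    sem ![r, c, d] rowOut = 2 * den * (prof.symP 12 r (-c) (-d) - slack * r ^ 8) := by
  rw [rowOut, sem, sem_rowSym _ _ _ _ _ _ (by simp [sem, hc, abs_of_nonneg])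
    (by simp [sem, hd, abs_of_nonneg])]
  simp [sem, slack, margin, den]
  ring

/-- Twice `den` times the pair row less the slack. -/
def pairRow (r c d : ℝ) : ℝ :=
  2 * den * (r ^ 3 * prof.symP 12 r c d - (aCoef c * d + aCoef d * c + 2 * beta * (c * d) * r) -
    slack * r ^ 9 * (((r - 2 * c) ^ 2 + (r - 2 * d) ^ 2) / 2))

/-- The pair row splits at the contact. -/
lemma pair_split (r m δ : ℝ) (hc : 0 ≤ m - δ) (hd : 0 ≤ m + δ) :
    pairRow r (m - δ) (m + δ) = (r - 2 * m) ^ 2 * sem ![r, m, 0] (rowQ (.x 0) (.x 1)) +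
      δ ^ 2 * sem ![r, m, δ ^ 2] (rowG (.x 0) (.x 1) (.x 2)) := by
  simp only [pairRow, rowQ, rowG, hornerE, horner, sem, Prof.symP, Prof.kerP, Prof.N, Prof.dN,
    prof, aCoef, beta, slack, margin, den, abs_of_nonneg hc, abs_of_nonneg hd, Matrix.cons_val_zero,
    Matrix.cons_val_one, Matrix.cons_val]
  push_cast
  ring

lemma q_eq (r m z : ℝ) :
    sem ![r, m, z] (rowQ (.x 0) (.x 1)) = sem ![r, m, 0] (rowQ (.x 0) (.x 1)) := by
  simp [rowQ, hornerE, horner, sem]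

lemma g_lo_eq (r m w : ℝ) :
    sem ![r, m, w] rowLo = (r - 2 * m) ^ 2 * sem ![r, m, 0] (rowQ (.x 0) (.x 1)) +
      m ^ 2 * sem ![r, m, w * m ^ 2] (rowG (.x 0) (.x 1) (.x 2)) := by
  simp only [rowLo, rowQ, rowG, hornerE, horner, sem, Matrix.cons_val_zero, Matrix.cons_val_one,
    Matrix.cons_val]
  push_cast
  ring

lemma g_hi_eq (r m w : ℝ) :
    sem ![r, m, w] rowHi = (r - 2 * m) ^ 2 * sem ![r, m, 0] (rowQ (.x 0) (.x 1)) +
      (1 - m) ^ 2 * sem ![r, m, w * (1 - m) ^ 2] (rowG (.x 0) (.x 1) (.x 2)) := by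
  simp only [rowHi, rowQ, rowG, hornerE, horner, sem, Matrix.cons_val_zero, Matrix.cons_val_one,
    Matrix.cons_val]
  push_cast
  ring

lemma g_corner_eq (r m w : ℝ) :
    sem ![r, m, w] (rowG (.x 0) (.x 1) (.mul (.x 2) (.pow (.add (.k 1) (.neg (.x 1))) 2))) =
      sem ![r, m, w * (1 - m) ^ 2] (rowG (.x 0) (.x 1) (.x 2)) := by
  simp only [rowG, hornerE, horner, sem, Matrix.cons_val_zero, Matrix.cons_val_one, Matrix.cons_val]
  push_cast
  ring

/-- A combination of two nonnegative rows. -/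
lemma combine {D G δ d : ℝ} (hδ : δ ^ 2 ≤ d ^ 2) (hD : 0 ≤ D) (hH : 0 ≤ D + d ^ 2 * G) :
    0 ≤ D + δ ^ 2 * G := by
  rcases le_or_gt 0 G with h | h
  · exact add_nonneg hD (mul_nonneg (sq_nonneg δ) h)
  · have := mul_le_mul_of_nonpos_right hδ h.le
    linarith

lemma pairRow_nonneg {r c d : ℝ} (hr : 0 < r) (hc : c ∈ Icc (0 : ℝ) 1) (hd : d ∈ Icc (0 : ℝ) 1) :
    0 ≤ pairRow r c d := by
  obtain ⟨m, hm⟩ : ∃ m, m = (c + d) / 2 := ⟨_, rfl⟩
  obtain ⟨δ, hδ⟩ : ∃ δ, δ = (d - c) / 2 := ⟨_, rfl⟩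
  have ec : c = m - δ := by rw [hm, hδ]; ring
  have ed : d = m + δ := by rw [hm, hδ]; ring
  rw [ec, ed, pair_split r m δ (ec ▸ hc.1) (ed ▸ hd.1)]
  have hm0 : m ∈ Icc (0 : ℝ) 1 := ⟨by linarith [hc.1, hd.1], by linarith [hc.2, hd.2]⟩
  have hD : 0 ≤ (r - 2 * m) ^ 2 * sem ![r, m, 0] (rowQ (.x 0) (.x 1)) :=
    mul_nonneg (sq_nonneg _) (q_nonneg hr.le hm0 ⟨le_rfl, zero_le_one⟩)
  have unit : ∀ D : ℝ, δ ^ 2 ≤ D ^ 2 → δ ^ 2 / D ^ 2 ∈ Icc (0 : ℝ) 1 ∧ δ ^ 2 / D ^ 2 * D ^ 2 = δ ^ 2 :=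
    fun D hD => by
      refine ⟨⟨by positivity, div_le_one_of_le₀ hD (sq_nonneg D)⟩, ?_⟩
      rcases eq_or_ne (D ^ 2) 0 with h | h
      · rw [h] at hD ⊢
        simp [le_antisymm hD (sq_nonneg δ)]
      · exact div_mul_cancel₀ _ h
  rcases le_total m (1 / 2) with h | h
  · have hδm : δ ^ 2 ≤ m ^ 2 := sq_le_sq.2 (by
      rw [abs_of_nonneg hm0.1, abs_le]; constructor <;> linarith [hc.1, hd.1])
    obtain ⟨hw, hw'⟩ := unit m hδm
    have h1 := lo_nonneg (r := r) hr.le ⟨hm0.1, h⟩ hw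
    rw [g_lo_eq, hw'] at h1
    exact combine hδm hD h1
  · have hδm : δ ^ 2 ≤ (1 - m) ^ 2 := sq_le_sq.2 (by
      rw [abs_of_nonneg (by linarith [hm0.2] : 0 ≤ 1 - m), abs_le]
      constructor <;> linarith [hc.2, hd.2])
    obtain ⟨hw, hw'⟩ := unit (1 - m) hδm
    by_cases hout : 2 ≤ r ∨ r ≤ 3 / 2 ∨ m ≤ 3 / 4
    · have h1 := hi_nonneg (r := r) hr.le ⟨h, hm0.2⟩ hw hout
      rw [g_hi_eq, hw'] at h1
      exact combine hδm hD h1
    · simp only [not_or, not_le] at hout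
      have h1 := corner_nonneg (r := r) ⟨hout.2.1.le, hout.1.le⟩ ⟨hout.2.2.le, hm0.2⟩ hw
      rw [g_corner_eq, hw'] at h1
      exact add_nonneg hD (mul_nonneg (sq_nonneg δ) h1)

lemma mixed_fact {r c d : ℝ} (hr : 0 < r) (hc : c ∈ Icc (0 : ℝ) 1) (hd : d ∈ Icc (0 : ℝ) 1) :
    2 * (c * d) * prof.N r 0 + slack * r ^ 8 ≤ prof.symP 12 r c (-d) := by
  have h := mix_nonneg (r := r) hr.le hc hd
  rw [mix_eq r c d hc.1 hd.1] at h
  linarith [nonneg_of_mul_nonneg_right h (mul_pos two_pos den_pos)]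

lemma outward_fact {r c d : ℝ} (hr : 0 < r) (hc : c ∈ Icc (0 : ℝ) 1) (hd : d ∈ Icc (0 : ℝ) 1) :
    slack * r ^ 8 ≤ prof.symP 12 r (-c) (-d) := by
  have h := out_nonneg (r := r) hr.le hc hd
  rw [out_eq r c d hc.1 hd.1] at h
  linarith [nonneg_of_mul_nonneg_right h (mul_pos two_pos den_pos)]

lemma pair_fact {r c d : ℝ} (hr : 0 < r) (hc : c ∈ Icc (0 : ℝ) 1) (hd : d ∈ Icc (0 : ℝ) 1) :
    aCoef c * d + aCoef d * c + 2 * beta * (c * d) * r +
        slack * r ^ 9 * (((r - 2 * c) ^ 2 + (r - 2 * d) ^ 2) / 2) ≤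
      r ^ 3 * prof.symP 12 r c d := by
  linarith [nonneg_of_mul_nonneg_right (pairRow_nonneg hr hc hd) (mul_pos two_pos den_pos)]

lemma gain_fact {r c d : ℝ} (hr : 0 < r) (hc : 0 ≤ c) (hcd : c ≤ d) (hd : d ≤ 1) :
    slack * r ^ 8 ≤ prof.symP 12 r c d + 2 * (c * d) * prof.N r d := by
  obtain ⟨z, hz, e⟩ : ∃ z ∈ Icc (0 : ℝ) 1, c = d * z := by
    rcases (hc.trans hcd).eq_or_lt with h | h
    · exact ⟨0, ⟨le_rfl, zero_le_one⟩, by rw [← h]; linarith⟩
    · exact ⟨c / d, ⟨div_nonneg hc h.le, (div_le_one h).2 hcd⟩, (mul_div_cancel₀ c h.ne').symm⟩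
  rw [e]
  have h := gain_nonneg (r := r) hr.le ⟨hc.trans hcd, hd⟩ hz
  rw [gain_eq r d z (hc.trans hcd) hz.1] at h
  linarith [nonneg_of_mul_nonneg_right h (mul_pos two_pos den_pos)]

lemma facts : Facts 12 aCoef beta prof where
  rim r hr := by
    have h := rim_nonneg (r := r) (y := 0) (z := 0) hr.le ⟨le_rfl, zero_le_one⟩ ⟨le_rfl, zero_le_one⟩
    rw [rim_eq] at h
    exact nonneg_of_mul_nonneg_right h den_pos
  slope r hr := by
    have h := slope_nonneg (r := r) (y := 0) (z := 0) hr.le ⟨le_rfl, zero_le_one⟩ ⟨le_rfl, zero_le_one⟩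
    rw [slope_eq, ← mul_neg] at h
    exact neg_nonneg.1 (nonneg_of_mul_nonneg_right h den_pos)
  gain r hr c d hc hcd hd := by
    linarith [gain_fact hr hc hcd hd, mul_nonneg slack_pos.le (pow_nonneg hr.le 8)]
  mixed r hr c hc d hd := by
    linarith [mixed_fact hr hc hd, mul_nonneg slack_pos.le (pow_nonneg hr.le 8)]
  outward r hr c hc d hd := by
    linarith [outward_fact hr hc hd, mul_nonneg slack_pos.le (pow_nonneg hr.le 8)]
  mono := by
    have hd : ∀ r : ℝ, HasDerivAt (fun x => x ^ 3 * prof.P0 x)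
        (r ^ 2 * (r * prof.D0 r + 3 * prof.P0 r)) r := fun r => by
      refine ((hasDerivAt_pow 3 r).mul (smooth_prof.deriv0 r)).congr_deriv ?_
      push_cast
      ring
    refine monotoneOn_of_hasDerivWithinAt_nonneg (convex_Ioi 0)
      (fun r _ => (hd r).continuousAt.continuousWithinAt) (fun r _ => (hd r).hasDerivWithinAt)
      fun r hr => ?_
    rw [interior_Ioi, mem_Ioi] at hr
    have h := mono_nonneg (r := r) (y := 0) (z := 0) hr.le ⟨le_rfl, zero_le_one⟩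
      ⟨le_rfl, zero_le_one⟩
    rw [mono_eq] at h
    exact mul_nonneg (sq_nonneg r) (nonneg_of_mul_nonneg_right h den_pos)
  pair r hr c hc d hd := by
    have := mul_nonneg (mul_nonneg slack_pos.le (pow_nonneg hr.le 9))
      (show 0 ≤ ((r - 2 * c) ^ 2 + (r - 2 * d) ^ 2) / 2 by positivity)
    simp only [Nat.reduceSub]
    linarith [pair_fact hr (Ioc_subset_Icc_self hc) (Ioc_subset_Icc_self hd)]

/-- The margins of the facts. -/
lemma margins : Margins 12 aCoef beta slack prof where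
  gain r hr c d hc hcd hd := gain_fact hr hc hcd hd
  mixed r hr c hc d hd := mixed_fact hr hc hd
  outward r hr c hc d hd := outward_fact hr hc hd
  pair r hr c hc d hd := pair_fact hr (Ioc_subset_Icc_self hc) (Ioc_subset_Icc_self hd)

lemma aCoef_nonpos {c : ℝ} (hc : c ∈ Icc (0 : ℝ) 1) : aCoef c ≤ 0 := by
  have h := aRow_nonneg (r := 0) (y := c) (z := 0) ⟨le_rfl, zero_le_one⟩ hc ⟨le_rfl, zero_le_one⟩
  have h1 := mul_nonneg hc.1 h
  rw [a_eq, ← mul_neg] at h1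
  exact neg_nonneg.1 (nonneg_of_mul_nonneg_right h1 den_pos)

end Vale.Agent.P219.CH.Flat.Twelve
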